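import Vale.Agent.P213.Bdl.B14

open Vale.Agent.P213.St2

theorem Vale.Agent.Results.P213.ThomasonNerve.result :
    (∀ a, IsNCat ⊤ (Or a)) ∧ ∀ n : ℕ∞, 1 ≤ n → IsThomason (nerve n) := main
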