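import Vale.Agent.P213.Bdl.B14

open CategoryTheory Vale.Agent.P213.SX

/-- The Ara-Maltsiniotis conjecture, with properness and combinatoriality. -/
theorem Vale.Agent.Results.P213.ThomasonProper.result (n : ℕ∞) (hn : 1 ≤ n) :
    (∃ N : NCat n ⥤ SSet.{0}, IsStreetNerve id (fun _ _ => Fun.toFun) N) ∧
    ∀ N : NCat n ⥤ SSet.{0}, IsStreetNerve id (fun _ _ => Fun.toFun) N → IsThomason N :=
  main n hn
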